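import Crest.Agent.R129.GMain

/-! # Part G (owner helper86): the labelled expander telescope.  Statement frozen. -/

set_option autoImplicit false

namespace Crest.Agent.R129

theorem partG : ∃ c R : ℕ, 2 ≤ R ∧ ∀ (CA : ℕ) (ε : ℝ), 0 < ε → ∃ C' : ℝ, 0 < C' ∧
    ∀ n₀ : ℕ, ∃ (n : ℕ) (_ : Fact n.Prime) (M₀ : ℕ), n₀ ≤ n ∧ 2 ≤ M₀ ∧
    ∀ (A : Type) [Group A] (μ : ℤ → (A × ZMod 4) →₀ ℝ) (on : ℤ → Prop),
      (∀ i, IsLaw (μ i)) → GenHyp μ on c M₀ R → Growth μ on CA M₀ →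
      ∃ (Γ : BG (ZMod n) A) (node : ℤ → Finset Γ.V), Γ.SCHyp ∧
        (∀ i, (node i).Nonempty) ∧ (∀ i j, i ≠ j → Disjoint (node i) (node j)) ∧
        (∀ i, ∀ v ∈ node i, Γ.isH v ↔ Even i) ∧
        (∀ u t w, Γ.nb u t = some w → ∃ i, on i ∧
          ((u ∈ node i ∧ w ∈ node (i + 1)) ∨ (u ∈ node (i + 1) ∧ w ∈ node i)) ∧
          ∃ ω, (Γ.a u t, ω) ∈ (μ i).support) ∧
        (∀ i, ∀ v ∈ node i, (n + 1) ^ (⌈8 * Γ.L v⌉₊ + 1) ≤ M₀ * R ^ i.natAbs) ∧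
        ‖Γ.Bop Γ.a - (((n : ℝ) / C' : ℝ) : ℂ) • (Γ.Wop A node ∘L Qop μ on ∘L adj (Γ.Wop A node))‖
          ≤ ε * ((n : ℝ) / C') :=
  partG'

end Crest.Agent.R129
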